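import Vale.Agent.P260.H662.Rep

/-!
# P260, block C2: spectral gap
-/

namespace Vale.Agent.P260.H662

open scoped InnerProductSpace ComplexConjugate
open Finset

section gap

variable {V : Type*} [NormedAddCommGroup V] [InnerProductSpace ℂ V] [FiniteDimensional ℂ V]

theorem gap_of_sq {S : V →ₗ[ℂ] V} (hS : S.IsSymmetric) (hnn : ∀ v, 0 ≤ (⟪S v, v⟫_ℂ).re) {κ : ℝ}
    (hκ : ∀ v, κ * (⟪S v, v⟫_ℂ).re ≤ ‖S v‖ ^ 2) {v : V} (hv : ∀ w, S w = 0 → ⟪w, v⟫_ℂ = 0) :
    κ * ‖v‖ ^ 2 ≤ (⟪S v, v⟫_ℂ).re := by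
  classical
  let b := hS.eigenvectorBasis rfl
  let lam := hS.eigenvalues rfl
  have hb : ∀ i, S (b i) = (lam i : ℂ) • b i := fun i => hS.apply_eigenvectorBasis rfl i
  have hbn : ∀ i, ‖b i‖ = 1 := fun i => b.orthonormal.1 i
  have hbi : ∀ i, (⟪S (b i), b i⟫_ℂ).re = lam i := fun i => by
    rw [hb, inner_smul_left, inner_self_eq_norm_sq_to_K, hbn]
    simp
  have hbs : ∀ i, ‖S (b i)‖ ^ 2 = lam i ^ 2 := fun i => by
    rw [hb, norm_smul, hbn, mul_one, Complex.norm_real, Real.norm_eq_abs, sq_abs]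
  have hl0 : ∀ i, 0 ≤ lam i := fun i => by rw [← hbi]; exact hnn _
  have hl1 : ∀ i, lam i = 0 ∨ κ ≤ lam i := fun i => by
    have h1 := hκ (b i)
    rw [hbi, hbs] at h1
    rcases eq_or_lt_of_le (hl0 i) with h | h
    · exact Or.inl h.symm
    · right
      rw [sq] at h1
      exact le_of_mul_le_mul_right h1 h
  have e1 : (⟪S v, v⟫_ℂ).re = ∑ i, lam i * ‖⟪b i, v⟫_ℂ‖ ^ 2 := by
    rw [← b.sum_inner_mul_inner (S v) v, Complex.re_sum]
    refine Finset.sum_congr rfl fun i _ => ?_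
    rw [hS v (b i), hb, inner_smul_right, mul_assoc, Complex.re_ofReal_mul]
    congr 1
    rw [← inner_conj_symm, ← Complex.normSq_eq_conj_mul_self, Complex.normSq_eq_norm_sq,
      Complex.ofReal_re]
  have e2 : ‖v‖ ^ 2 = ∑ i, ‖⟪b i, v⟫_ℂ‖ ^ 2 := by
    have h1 : ‖v‖ ^ 2 = (⟪v, v⟫_ℂ).re := by
      simpa using (inner_self_eq_norm_sq (𝕜 := ℂ) v).symm
    rw [h1, ← b.sum_inner_mul_inner v v, Complex.re_sum]
    refine Finset.sum_congr rfl fun i _ => ?_
    rw [← inner_conj_symm, ← Complex.normSq_eq_conj_mul_self, Complex.normSq_eq_norm_sq,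
      Complex.ofReal_re]
  rw [e1, e2, Finset.mul_sum]
  refine Finset.sum_le_sum fun i _ => ?_
  rcases hl1 i with h | h
  · have h0 : S (b i) = 0 := by rw [hb, h, Complex.ofReal_zero, zero_smul]
    rw [hv _ h0]
    simp
  · exact mul_le_mul_of_nonneg_right h (by positivity)

/-- **Gap from pairwise estimates.** -/
theorem gap_of_pairs {n : ℕ} {P : Fin n → V →ₗ[ℂ] V} (hP : ∀ a, Proj (P a)) {ε κ : ℝ}
    (hε : 0 ≤ ε) (hκ : κ + n * ε ≤ 1 + ε)
    (hpair : ∀ a b, a ≠ b → ∀ v, -(ε / 2) * (‖v - P a v‖ ^ 2 + ‖v - P b v‖ ^ 2) ≤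
      (⟪v - P a v, v - P b v⟫_ℂ).re) {v : V} (hv : ∀ w, (∀ a, P a w = w) → ⟪w, v⟫_ℂ = 0) :
    κ * ‖v‖ ^ 2 ≤ ∑ a, ‖v - P a v‖ ^ 2 := by
  classical
  let S : V →ₗ[ℂ] V := ∑ a, (LinearMap.id - P a)
  have hSv : ∀ v, S v = ∑ a, (v - P a v) := fun v => by
    simp [S]
  have hsq : ∀ a v, (⟪v - P a v, v⟫_ℂ).re = ‖v - P a v‖ ^ 2 := fun a v => by
    have h1 := (hP a).compl.inner_self v
    rw [LinearMap.sub_apply, LinearMap.id_apply] at h1
    rw [h1]
    simpa using inner_self_eq_norm_sq (𝕜 := ℂ) (v - P a v)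
  have hSi : ∀ v, (⟪S v, v⟫_ℂ).re = ∑ a, ‖v - P a v‖ ^ 2 := fun v => by
    rw [hSv, sum_inner, Complex.re_sum]
    exact Finset.sum_congr rfl fun a _ => hsq a v
  have hS : S.IsSymmetric := by
    intro v w
    rw [hSv, hSv, sum_inner, inner_sum]
    refine Finset.sum_congr rfl fun a _ => ?_
    have := (hP a).compl.symm v w
    rwa [LinearMap.sub_apply, LinearMap.id_apply, LinearMap.sub_apply, LinearMap.id_apply] at this
  rw [← hSi]
  refine gap_of_sq hS (fun v => ?_) (fun v => ?_) (fun w hw => ?_)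
  · rw [hSi]; positivity
  · -- the pairwise estimate
    have h1 : ‖S v‖ ^ 2 = ∑ a, ∑ b, (⟪v - P a v, v - P b v⟫_ℂ).re := by
      have : ‖S v‖ ^ 2 = (⟪S v, S v⟫_ℂ).re := by
        simpa using (inner_self_eq_norm_sq (𝕜 := ℂ) (S v)).symm
      rw [this, hSv, sum_inner, Complex.re_sum]
      refine Finset.sum_congr rfl fun a _ => ?_
      rw [inner_sum, Complex.re_sum]
    rw [h1, hSi]
    set t : Fin n → ℝ := fun a => ‖v - P a v‖ ^ 2 with ht
    have ht0 : ∀ a, 0 ≤ t a := fun a => by rw [ht]; positivity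
    have h2 : ∀ a b, (if a = b then (1 + ε) * t a else 0) - (ε / 2) * (t a + t b) ≤
        (⟪v - P a v, v - P b v⟫_ℂ).re := by
      intro a b
      split_ifs with h
      · subst h
        have : (⟪v - P a v, v - P a v⟫_ℂ).re = t a := by
          simpa using inner_self_eq_norm_sq (𝕜 := ℂ) (v - P a v)
        rw [this]
        linarith
      · have := hpair a b h v
        rw [zero_sub, ← neg_mul]
        exact this
    calc κ * ∑ a, t a ≤ (1 + ε - n * ε) * ∑ a, t a :=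
          mul_le_mul_of_nonneg_right (by linarith) (Finset.sum_nonneg fun a _ => ht0 a)
      _ = ∑ a, ∑ b, ((if a = b then (1 + ε) * t a else 0) - (ε / 2) * (t a + t b)) := by
          simp only [Finset.sum_sub_distrib, Finset.sum_ite_eq, Finset.mem_univ, if_true,
            ← Finset.mul_sum, Finset.sum_add_distrib, Finset.sum_const, Finset.card_univ,
            Fintype.card_fin, nsmul_eq_mul]
          ring
      _ ≤ _ := Finset.sum_le_sum fun a _ => Finset.sum_le_sum fun b _ => h2 a b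
  · apply hv
    intro a
    have h1 := hSi w
    rw [hw, inner_zero_left, Complex.zero_re] at h1
    have h2 := (Finset.sum_eq_zero_iff_of_nonneg (fun a _ => by positivity)).1 h1.symm a
      (Finset.mem_univ a)
    have h3 : ‖w - P a w‖ = 0 := by
      exact pow_eq_zero_iff two_ne_zero |>.1 h2
    rw [norm_eq_zero, sub_eq_zero] at h3
    exact h3.symm

end gap

end Vale.Agent.P260.H662
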