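import Vale.Agent.P260.H662.Grp
import Vale.Agent.P260.H662.Gap

/-!
# P260, block C2: the regular representation
-/

namespace Vale.Agent.P260.H662

open scoped InnerProductSpace ComplexConjugate commutatorElement
open Finset

section reg

variable {Q : Type*} [Group Q] [Fintype Q]

/-- the left regular representation -/
noncomputable def reg (Q : Type*) [Group Q] [Fintype Q] :
    Q →* (EuclideanSpace ℂ Q →ₗ[ℂ] EuclideanSpace ℂ Q) where
  toFun := fun g =>
    (LinearIsometryEquiv.piLpCongrLeft 2 ℂ ℂ (Equiv.mulLeft g)).toLinearEquiv.toLinearMap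
  map_one' := by
    ext v x
    change v ((1 : Q)⁻¹ * x) = v x
    rw [inv_one, one_mul]
  map_mul' := fun g h => by
    ext v x
    change v ((g * h)⁻¹ * x) = v (h⁻¹ * (g⁻¹ * x))
    rw [mul_inv_rev, mul_assoc]

theorem reg_apply (g : Q) (v : EuclideanSpace ℂ Q) (x : Q) : reg Q g v x = v (g⁻¹ * x) := rfl

theorem reg_iso : Iso (reg Q) := fun g v w =>
  (LinearIsometryEquiv.piLpCongrLeft 2 ℂ ℂ (Equiv.mulLeft g)).inner_map_map v w

theorem norm_sub_avg_le {V : Type*} [NormedAddCommGroup V] [InnerProductSpace ℂ V]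
    (ρ : Q →* (V →ₗ[ℂ] V)) {H : Type*} [Group H] [Fintype H] (m : H →* Q) (v : V) {C : ℝ}
    (hC : ∀ h, ‖v - ρ (m h) v‖ ≤ C) : ‖v - avg ρ m v‖ ≤ C := by
  have h1 : v - avg ρ m v = ((Fintype.card H : ℂ)⁻¹) • ∑ h, (v - ρ (m h) v) := by
    rw [avg_apply, Finset.sum_sub_distrib, smul_sub, Finset.sum_const, Finset.card_univ,
      ← Nat.cast_smul_eq_nsmul ℂ, smul_smul, inv_mul_cancel₀, one_smul]
    exact_mod_cast Fintype.card_ne_zero
  have hcard : (0 : ℝ) < Fintype.card H := by exact_mod_cast Fintype.card_pos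
  rw [h1, norm_smul, norm_inv, Complex.norm_natCast]
  calc (Fintype.card H : ℝ)⁻¹ * ‖∑ h, (v - ρ (m h) v)‖
      ≤ (Fintype.card H : ℝ)⁻¹ * ∑ h : H, C := by
        refine mul_le_mul_of_nonneg_left ?_ (by positivity)
        exact (norm_sum_le _ _).trans (Finset.sum_le_sum fun h _ => hC h)
    _ = C := by
        rw [Finset.sum_const, Finset.card_univ, nsmul_eq_mul]
        field_simp

variable {q l : ℕ} [Fact q.Prime] {x : Fin 16 → Fin l → Q}

theorem gap_reg (hpow : ∀ a i, x a i ^ q = 1) (hcomm : ∀ a i j, Commute (x a i) (x a j))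
    (hgen : Subgroup.closure (Set.range fun p : Fin 16 × Fin l => x p.1 p.2) = ⊤)
    (hT : ∀ a b, a ≠ b → Two q (x a) (x b))
    (hcode : ∀ a b, a ≠ b → ∀ ψ : KK (x a) (x b) →* Multiplicative (ZMod q), ψ ≠ 1 →
      Nat.card {v : Fin l → ZMod q // ∀ j, ∑ i, v i * Multiplicative.toAdd
        (ψ ⟨⁅x a i, x b j⁆, Subgroup.subset_closure ⟨(i, j), rfl⟩⟩) = 0} * q ^ 8 ≤ q ^ l)
    {v : EuclideanSpace ℂ Q} (hv : ∑ u, v u = 0) :
    (1 / 16) * ‖v‖ ^ 2 ≤ ∑ a, ‖v - avg (reg Q) (MM (x a) (hpow a) (hcomm a)) v‖ ^ 2 := by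
  classical
  refine gap_of_pairs (P := fun a => avg (reg Q) (MM (x a) (hpow a) (hcomm a)))
    (ε := 1 / 16) (fun a => reg_iso.avg_proj _) (by norm_num) (by norm_num) ?_ ?_
  · intro a b hab v
    have h := (hT a b hab).pair (hcode a b hab) reg_iso v
    have e : -(1 / 16 / 2 : ℝ) = -(1 / 32) := by norm_num
    rw [e]
    exact h
  · intro w hw
    have h1 : ∀ g ∈ Subgroup.closure (Set.range fun p : Fin 16 × Fin l => x p.1 p.2),
        reg Q g w = w := by
      intro g hg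
      induction hg using Subgroup.closure_induction with
      | mem y hy =>
        obtain ⟨⟨a, i⟩, rfl⟩ := hy
        have h2 := avg_fix (reg Q) (MM (x a) (hpow a) (hcomm a))
          (Pi.mulSingle i (Multiplicative.ofAdd 1)) w
        rw [MM_single] at h2
        have h3 := hw a
        rw [h3] at h2
        exact h2
      | one => exact rho_one w
      | mul a b _ _ ha hb => rw [rho_mul, hb, ha]
      | inv a _ ha =>
        conv_lhs => rw [← ha]
        rw [← rho_mul, inv_mul_cancel, rho_one]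
    have h4 : ∀ u, w u = w 1 := by
      intro u
      have h5 := h1 u (by rw [hgen]; trivial)
      have h6 := congrArg (fun f : EuclideanSpace ℂ Q => f u) h5
      simp only at h6
      rw [reg_apply, inv_mul_cancel] at h6
      exact h6.symm
    rw [PiLp.inner_apply]
    have h7 : ∀ u ∈ (Finset.univ : Finset Q), ⟪w u, v u⟫_ℂ = v u * conj (w 1) := fun u _ => by
      rw [h4 u]
      rfl
    rw [Finset.sum_congr rfl h7, ← Finset.sum_mul, hv, zero_mul]

end reg

section folner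

variable {Γ : Type*} [Group Γ] {Q : Type*} [Group Q] [Fintype Q]

open Classical in
/-- the fiber count -/
noncomputable def nn (φ : Γ →* Q) (F : Finset Γ) (u : Q) : ℕ := (F.filter fun f => φ f = u).card

theorem sum_nn (φ : Γ →* Q) (F : Finset Γ) : ∑ u, nn φ F u = F.card := by
  classical
  have := Finset.card_eq_sum_card_fiberwise (s := F) (t := Finset.univ) (f := φ)
    (fun _ _ => Finset.mem_coe.2 (Finset.mem_univ _))
  rw [this]
  refine Finset.sum_congr rfl fun u _ => ?_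
  rw [nn]

open Classical in
theorem nn_image (φ : Γ →* Q) (F : Finset Γ) (y : Γ) (u : Q) :
    nn φ (F.image fun f => y * f) u = nn φ F ((φ y)⁻¹ * u) := by
  rw [nn, nn]
  refine (Finset.card_bij (fun f _ => y * f) ?_ ?_ ?_).symm
  · intro f hf
    rw [Finset.mem_filter] at hf ⊢
    refine ⟨Finset.mem_image_of_mem _ hf.1, ?_⟩
    rw [map_mul, hf.2, mul_inv_cancel_left]
  · intro f _ f' _ h
    exact mul_left_cancel h
  · intro b hb
    rw [Finset.mem_filter, Finset.mem_image] at hb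
    obtain ⟨⟨f, hf, rfl⟩, hb⟩ := hb
    refine ⟨f, ?_, rfl⟩
    rw [Finset.mem_filter]
    refine ⟨hf, ?_⟩
    rw [← hb, map_mul, inv_mul_cancel_left]

theorem sqrt_sub_sq {a b : ℝ} (ha : 0 ≤ a) (hb : 0 ≤ b) : (√a - √b) ^ 2 ≤ |a - b| := by
  have h1 : |√a - √b| ≤ √a + √b := by
    rw [abs_le]
    constructor <;> linarith [Real.sqrt_nonneg a, Real.sqrt_nonneg b]
  have h2 : |a - b| = |√a - √b| * (√a + √b) := by
    have : a - b = (√a - √b) * (√a + √b) := by
      have h3 := Real.sq_sqrt ha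
      have h4 := Real.sq_sqrt hb
      nlinarith
    rw [this, abs_mul, abs_of_nonneg (by positivity : 0 ≤ √a + √b)]
  rw [h2, ← sq_abs, sq]
  exact mul_le_mul_of_nonneg_left h1 (abs_nonneg _)

open Classical in
theorem nn_sub_le (φ : Γ →* Q) (F F' : Finset Γ) (u : Q) :
    |(nn φ F u : ℝ) - nn φ F' u| ≤ nn φ (F \ F') u + nn φ (F' \ F) u := by
  have key : ∀ F F' : Finset Γ, nn φ F u ≤ nn φ F' u + nn φ (F \ F') u := by
    intro F F'
    rw [nn, nn, nn]
    calc (F.filter fun f => φ f = u).card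
        ≤ ((F'.filter fun f => φ f = u) ∪ ((F \ F').filter fun f => φ f = u)).card := by
          refine Finset.card_le_card ?_
          intro f hf
          rw [Finset.mem_filter] at hf
          rw [Finset.mem_union, Finset.mem_filter, Finset.mem_filter, Finset.mem_sdiff]
          by_cases h : f ∈ F'
          · exact Or.inl ⟨h, hf.2⟩
          · exact Or.inr ⟨⟨hf.1, h⟩, hf.2⟩
      _ ≤ _ := Finset.card_union_le _ _
  have h1 : (nn φ F u : ℝ) ≤ nn φ F' u + nn φ (F \ F') u := by exact_mod_cast key F F'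
  have h2 : (nn φ F' u : ℝ) ≤ nn φ F u + nn φ (F' \ F) u := by exact_mod_cast key F' F
  rw [abs_le]
  constructor
  · have : (0 : ℝ) ≤ nn φ (F \ F') u := Nat.cast_nonneg _
    linarith
  · have : (0 : ℝ) ≤ nn φ (F' \ F) u := Nat.cast_nonneg _
    linarith

/-- the test vector -/
noncomputable def gv (φ : Γ →* Q) (F : Finset Γ) : EuclideanSpace ℂ Q :=
  WithLp.toLp 2 fun u => ((√(nn φ F u) - (∑ u, √(nn φ F u)) / Fintype.card Q : ℝ) : ℂ)

theorem gv_apply (φ : Γ →* Q) (F : Finset Γ) (u : Q) : gv φ F u =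
    ((√(nn φ F u) - (∑ u, √(nn φ F u)) / Fintype.card Q : ℝ) : ℂ) := rfl

theorem sum_gv (φ : Γ →* Q) (F : Finset Γ) : ∑ u, gv φ F u = 0 := by
  simp only [gv_apply]
  rw [← Complex.ofReal_sum, Finset.sum_sub_distrib, Finset.sum_const, Finset.card_univ,
    nsmul_eq_mul, mul_div_cancel₀, sub_self, Complex.ofReal_zero]
  exact_mod_cast Fintype.card_ne_zero

open Classical in
theorem gv_move (φ : Γ →* Q) (F : Finset Γ) (y : Γ) {δ : ℝ}
    (hF : (((F.image fun f => y * f) \ F).card : ℝ) ≤ δ * F.card) :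
    ‖gv φ F - reg Q (φ y) (gv φ F)‖ ^ 2 ≤ 2 * δ * F.card := by
  rw [EuclideanSpace.norm_sq_eq]
  set F' := F.image fun f => y * f with hF'
  have h1 : ∀ u, ‖(gv φ F - reg Q (φ y) (gv φ F)) u‖ ^ 2 ≤
      nn φ (F \ F') u + nn φ (F' \ F) u := by
    intro u
    have e : (gv φ F - reg Q (φ y) (gv φ F)) u =
        ((√(nn φ F u) - √(nn φ F' u) : ℝ) : ℂ) := by
      rw [PiLp.sub_apply, reg_apply, gv_apply, gv_apply, nn_image, ← Complex.ofReal_sub]
      congr 1
      ring
    rw [e, Complex.norm_real, Real.norm_eq_abs, sq_abs]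
    exact (sqrt_sub_sq (Nat.cast_nonneg _) (Nat.cast_nonneg _)).trans (nn_sub_le φ F F' u)
  have hc : (F \ F').card = (F' \ F).card := by
    apply Finset.card_sdiff_comm
    rw [hF', Finset.card_image_of_injective]
    exact fun a b h => mul_left_cancel h
  calc ∑ u, ‖(gv φ F - reg Q (φ y) (gv φ F)) u‖ ^ 2
      ≤ ∑ u, ((nn φ (F \ F') u : ℝ) + nn φ (F' \ F) u) := Finset.sum_le_sum fun u _ => h1 u
    _ = ((F \ F').card : ℝ) + (F' \ F).card := by
      rw [Finset.sum_add_distrib, ← Nat.cast_sum, ← Nat.cast_sum, sum_nn, sum_nn]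
    _ ≤ 2 * δ * F.card := by
      rw [hc]
      linarith

theorem gv_norm (φ : Γ →* Q) (F : Finset Γ) (hQ : 2 * F.card ≤ Fintype.card Q) :
    (F.card : ℝ) / 2 ≤ ‖gv φ F‖ ^ 2 := by
  rw [EuclideanSpace.norm_sq_eq]
  set s := ∑ u, √(nn φ F u : ℝ) with hs
  have hQ0 : (0 : ℝ) < Fintype.card Q := by exact_mod_cast Fintype.card_pos
  have h1 : ∀ u, ‖gv φ F u‖ ^ 2 = nn φ F u - 2 * (s / Fintype.card Q) * √(nn φ F u) +
      (s / Fintype.card Q) ^ 2 := by
    intro u
    rw [gv_apply, Complex.norm_real, Real.norm_eq_abs, sq_abs, ← hs]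
    have := Real.sq_sqrt (Nat.cast_nonneg (α := ℝ) (nn φ F u))
    nlinarith
  have h2 : ∑ u, ‖gv φ F u‖ ^ 2 = F.card - s ^ 2 / Fintype.card Q := by
    simp only [h1]
    rw [Finset.sum_add_distrib, Finset.sum_sub_distrib, ← Finset.mul_sum, ← hs,
      Finset.sum_const, Finset.card_univ, nsmul_eq_mul, ← Nat.cast_sum, sum_nn]
    field_simp
    ring
  have h3 : s ≤ F.card := by
    rw [← sum_nn φ F, Nat.cast_sum, hs]
    refine Finset.sum_le_sum fun u _ => ?_
    rw [Real.sqrt_le_left (Nat.cast_nonneg _)]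
    norm_cast
    exact Nat.le_self_pow two_ne_zero _
  have h4 : 0 ≤ s := Finset.sum_nonneg fun u _ => Real.sqrt_nonneg _
  have h5 : s ^ 2 / Fintype.card Q ≤ (F.card : ℝ) / 2 := by
    rw [div_le_div_iff₀ hQ0 two_pos]
    have h6 : (2 : ℝ) * F.card ≤ Fintype.card Q := by exact_mod_cast hQ
    have h7 : s ^ 2 ≤ (F.card : ℝ) ^ 2 := pow_le_pow_left₀ h4 h3 2
    have h8 : (0 : ℝ) ≤ F.card := Nat.cast_nonneg _
    nlinarith
  rw [h2]
  linarith

end folner

end Vale.Agent.P260.H662
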