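import Vale.Agent.P260.H145.MainA
import Vale.Agent.P260.H662.Reg

/-!
# P260, block C2: the angle criterion contradicts the Følner condition
-/

namespace Vale.Agent.P260.H662

open scoped InnerProductSpace ComplexConjugate commutatorElement
open Finset Vale.Agent.P260.H145

theorem two_of_rel {q l : ℕ} {Q : Type} [Group Q] {y : Fin 16 × Fin l → Q} (h : C2Rel q l y)
    {a b : Fin 16} (hab : a ≠ b) : Two q (fun i => y (a, i)) (fun i => y (b, i)) where
  powX := fun i => h.pow _
  powY := fun i => h.pow _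
  commX := fun i j => h.comm _ _ _
  commY := fun i j => h.comm _ _ _
  tX := fun i j k => h.triple a b i j k hab
  tY := fun i j k => by
    have h1 := h.triple b a j i k hab.symm
    have h2 : ⁅y (a, i), y (b, j)⁆ = ⁅y (b, j), y (a, i)⁆⁻¹ := (commutatorElement_inv _ _).symm
    change Commute ⁅y (a, i), y (b, j)⁆ (y (b, k))
    rw [h2]
    exact h1.inv_left

open Classical in
/-- the elements of a finite set of products in the group -/
noncomputable def EE (q : ℕ) [NeZero q] {l : ℕ} {Γ : Type} [Group Γ] (x : Fin 16 × Fin l → Γ) :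
    Finset Γ :=
  Finset.univ.image fun p : Fin 16 × (Fin l → Multiplicative (ZMod q)) =>
    ((List.finRange l).map fun i => x (p.1, i) ^ (Multiplicative.toAdd (p.2 i)).val).prod

/-- **Block C2.** -/
theorem c2 : C2Statement := by
  intro q _ l Γ _ x hF hgen hQ
  classical
  have hF' : ∀ (E : Finset Γ) (ε : ℝ), 0 < ε → ∃ F : Finset Γ, F.Nonempty ∧
      ∀ g ∈ E, (((F.image fun x => g * x) \ F).card : ℝ) ≤ ε * F.card := by
    intro E ε hε
    obtain ⟨F, h1, h2⟩ := hF E ε hε
    refine ⟨F, h1, fun g hg => ?_⟩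
    have := h2 g hg
    convert this
  obtain ⟨F, hFne, hFE⟩ := hF' (EE q x) (1 / 2000) (by norm_num)
  obtain ⟨Q, _, _, φ, hφ, hcard, hrel⟩ := hQ (2 * F.card)
  let _ : Fintype Q := Fintype.ofFinite Q
  rw [Nat.card_eq_fintype_card] at hcard
  have hFpos : (0 : ℝ) < F.card := by exact_mod_cast Finset.card_pos.2 hFne
  have h1 := gv_norm φ F hcard
  have hgenQ : Subgroup.closure (Set.range fun p : Fin 16 × Fin l => φ (x (p.1, p.2))) = ⊤ := by
    have h2 : (Subgroup.closure (Set.range x)).map φ = ⊤ := by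
      rw [hgen, ← MonoidHom.range_eq_map]
      exact MonoidHom.range_eq_top.2 hφ
    rw [MonoidHom.map_closure, ← Set.range_comp] at h2
    exact h2
  have h2 := gap_reg (x := fun a i => φ (x (a, i))) (fun a i => hrel.pow (a, i))
    (fun a i j => hrel.comm a i j) hgenQ (fun a b hab => two_of_rel hrel hab)
    (fun a b hab ψ hψ => hrel.code a b hab ψ hψ) (v := gv φ F) (sum_gv φ F)
  have h3 : ∀ a, ‖gv φ F - avg (reg Q) (MM (fun i => φ (x (a, i))) (fun i => hrel.pow (a, i))
      (fun i j => hrel.comm a i j)) (gv φ F)‖ ^ 2 ≤ 2 * (1 / 2000) * F.card := by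
    intro a
    have h4 : ‖gv φ F - avg (reg Q) (MM (fun i => φ (x (a, i))) (fun i => hrel.pow (a, i))
        (fun i j => hrel.comm a i j)) (gv φ F)‖ ≤ √(2 * (1 / 2000) * F.card) := by
      refine norm_sub_avg_le _ _ _ fun h => ?_
      refine Real.le_sqrt_of_sq_le ?_
      have h5 : MM (fun i => φ (x (a, i))) (fun i => hrel.pow (a, i))
          (fun i j => hrel.comm a i j) h = φ (((List.finRange l).map fun i =>
            x (a, i) ^ (Multiplicative.toAdd (h i)).val).prod) := by
        rw [MM_apply, map_list_prod, List.map_map]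
        congr 2
        funext i
        rw [Function.comp_apply, map_pow]
      rw [h5]
      exact gv_move φ F _ (hFE _ (Finset.mem_image.2 ⟨(a, h), Finset.mem_univ _, rfl⟩))
    calc _ ≤ (√(2 * (1 / 2000) * F.card)) ^ 2 := pow_le_pow_left₀ (norm_nonneg _) h4 2
      _ = _ := Real.sq_sqrt (by positivity)
  have h4 : ∑ a, ‖gv φ F - avg (reg Q) (MM (fun i => φ (x (a, i))) (fun i => hrel.pow (a, i))
      (fun i j => hrel.comm a i j)) (gv φ F)‖ ^ 2 ≤ ∑ _a : Fin 16, 2 * (1 / 2000) * (F.card : ℝ) :=
    Finset.sum_le_sum fun a _ => h3 a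
  rw [Finset.sum_const, Finset.card_univ, Fintype.card_fin, nsmul_eq_mul] at h4
  have h5 := h2.trans h4
  push_cast at h5
  linarith

end Vale.Agent.P260.H662
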