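import Vale.Agent.P260.H662.Pair

/-!
# P260, block C2: two commutative subgroups of exponent `q` with central commutators
-/

namespace Vale.Agent.P260.H662

open scoped commutatorElement InnerProductSpace ComplexConjugate

section hom

variable {q : ℕ} {Q : Type*} [Group Q]

/-- the homomorphism from `ℤ/q` -/
noncomputable def phi (q : ℕ) (x : Q) (hx : x ^ q = 1) : Multiplicative (ZMod q) →* Q :=
  AddMonoidHom.toMultiplicativeLeft
    (ZMod.lift q ⟨zmultiplesHom (Additive Q) (Additive.ofMul x), by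
      rw [zmultiplesHom_apply, natCast_zsmul, ← ofMul_pow, hx, ofMul_one]⟩)

theorem phi_natCast (x : Q) (hx : x ^ q = 1) (n : ℕ) :
    phi q x hx (Multiplicative.ofAdd (n : ZMod q)) = x ^ n := by
  have h1 : ZMod.lift q (⟨zmultiplesHom (Additive Q) (Additive.ofMul x), by
      rw [zmultiplesHom_apply, natCast_zsmul, ← ofMul_pow, hx, ofMul_one]⟩ :
      {f : ℤ →+ Additive Q // f q = 0}) ((n : ℤ) : ZMod q) = Additive.ofMul (x ^ n) := by
    rw [ZMod.lift_coe]
    simp [ofMul_pow]
  rw [Int.cast_natCast] at h1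
  rw [phi, AddMonoidHom.coe_toMultiplicativeLeft, Function.comp_apply, Function.comp_apply,
    toAdd_ofAdd, h1, toMul_ofMul]

theorem phi_apply [NeZero q] (x : Q) (hx : x ^ q = 1) (a : Multiplicative (ZMod q)) :
    phi q x hx a = x ^ (Multiplicative.toAdd a).val := by
  rw [← phi_natCast x hx, ZMod.natCast_zmod_val, ofAdd_toAdd]

variable [NeZero q] {l : ℕ} (X : Fin l → Q) (hX : ∀ i, X i ^ q = 1)
  (hc : ∀ i j, Commute (X i) (X j))

include hc in
theorem phi_pairwise : Pairwise fun i j => ∀ x y : Multiplicative (ZMod q),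
    Commute (phi q (X i) (hX i) x) (phi q (X j) (hX j) y) := by
  intro i j _ x y
  rw [phi_apply, phi_apply]
  exact (hc i j).pow_pow _ _

/-- the homomorphism from `(ℤ/q)^l` -/
noncomputable def MM : (Fin l → Multiplicative (ZMod q)) →* Q :=
  MonoidHom.noncommPiCoprod (N := fun _ : Fin l => Multiplicative (ZMod q))
    (fun i => phi q (X i) (hX i)) (phi_pairwise X hX hc)

theorem MM_apply (h : Fin l → Multiplicative (ZMod q)) :
    MM X hX hc h = ((List.finRange l).map fun i => X i ^ (Multiplicative.toAdd (h i)).val).prod := by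
  classical
  have h1 : MM X hX hc h = (Finset.univ : Finset (Fin l)).noncommProd
      (fun i => phi q (X i) (hX i) (h i)) (fun i _ j _ hij => phi_pairwise X hX hc hij _ _) := rfl
  rw [h1]
  have h2 := Finset.noncommProd_toFinset (List.finRange l)
    (fun i => phi q (X i) (hX i) (h i)) (fun i _ j _ hij => phi_pairwise X hX hc hij _ _)
    (List.nodup_finRange l)
  simp only [List.toFinset_finRange] at h2
  rw [h2]
  simp only [phi_apply]

theorem MM_mem (h : Fin l → Multiplicative (ZMod q)) :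
    MM X hX hc h ∈ Subgroup.closure (Set.range X) := by
  rw [MM_apply]
  refine Subgroup.list_prod_mem _ ?_
  intro x hx
  rw [List.mem_map] at hx
  obtain ⟨i, -, rfl⟩ := hx
  have h1 : X i ∈ Subgroup.closure (Set.range X) := Subgroup.subset_closure ⟨i, rfl⟩
  exact pow_mem h1 _

theorem MM_single (i : Fin l) :
    MM X hX hc (Pi.mulSingle i (Multiplicative.ofAdd 1)) = X i := by
  have h1 := MonoidHom.noncommPiCoprod_mulSingle (N := fun _ : Fin l => Multiplicative (ZMod q))
    (fun i => phi q (X i) (hX i)) (hcomm := phi_pairwise X hX hc) i (Multiplicative.ofAdd 1)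
  have := phi_natCast (X i) (hX i) 1
  rw [Nat.cast_one, pow_one] at this
  exact h1.trans this

theorem MM_single' (i : Fin l) (n : ℕ) :
    MM X hX hc (Pi.mulSingle i (Multiplicative.ofAdd (n : ZMod q))) = X i ^ n := by
  have h1 := MonoidHom.noncommPiCoprod_mulSingle (N := fun _ : Fin l => Multiplicative (ZMod q))
    (fun i => phi q (X i) (hX i)) (hcomm := phi_pairwise X hX hc) i
    (Multiplicative.ofAdd (n : ZMod q))
  exact h1.trans (phi_natCast (X i) (hX i) n)

end hom

section two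

variable {q l : ℕ} {Q : Type*} [Group Q] {X Y : Fin l → Q}

/-- two blocks -/
structure Two (q : ℕ) {l : ℕ} (X Y : Fin l → Q) : Prop where
  powX : ∀ i, X i ^ q = 1
  powY : ∀ i, Y i ^ q = 1
  commX : ∀ i j, Commute (X i) (X j)
  commY : ∀ i j, Commute (Y i) (Y j)
  tX : ∀ i j k, Commute ⁅X i, Y j⁆ (X k)
  tY : ∀ i j k, Commute ⁅X i, Y j⁆ (Y k)

/-- the commutator subgroup -/
abbrev KK (X Y : Fin l → Q) : Subgroup Q :=
  Subgroup.closure (Set.range fun p : Fin l × Fin l => ⁅X p.1, Y p.2⁆)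

/-- the commutator of the inverses -/
def DD (h g : Q) : Q := h⁻¹ * g⁻¹ * h * g

theorem Two.cX (T : Two q X Y) {z : Q} (hz : z ∈ KK X Y) {h : Q}
    (hh : h ∈ Subgroup.closure (Set.range X)) : Commute z h := by
  induction hh using Subgroup.closure_induction with
  | mem x hx =>
    obtain ⟨k, rfl⟩ := hx
    induction hz using Subgroup.closure_induction with
    | mem x hx => obtain ⟨p, rfl⟩ := hx; exact T.tX _ _ _
    | one => exact Commute.one_left _
    | mul a b _ _ ha hb => exact ha.mul_left hb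
    | inv a _ ha => exact ha.inv_left
  | one => exact Commute.one_right _
  | mul a b _ _ ha hb => exact ha.mul_right hb
  | inv a _ ha => exact ha.inv_right

theorem Two.cY (T : Two q X Y) {z : Q} (hz : z ∈ KK X Y) {h : Q}
    (hh : h ∈ Subgroup.closure (Set.range Y)) : Commute z h := by
  induction hh using Subgroup.closure_induction with
  | mem x hx =>
    obtain ⟨k, rfl⟩ := hx
    induction hz using Subgroup.closure_induction with
    | mem x hx => obtain ⟨p, rfl⟩ := hx; exact T.tY _ _ _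
    | one => exact Commute.one_left _
    | mul a b _ _ ha hb => exact ha.mul_left hb
    | inv a _ ha => exact ha.inv_left
  | one => exact Commute.one_right _
  | mul a b _ _ ha hb => exact ha.mul_right hb
  | inv a _ ha => exact ha.inv_right

theorem Two.genComm (T : Two q X Y) : ∀ x ∈ (Set.range fun p : Fin l × Fin l => ⁅X p.1, Y p.2⁆),
    ∀ y ∈ (Set.range fun p : Fin l × Fin l => ⁅X p.1, Y p.2⁆), x * y = y * x := by
  rintro _ ⟨p, rfl⟩ _ ⟨p', rfl⟩
  have h1 := T.tX p.1 p.2 p'.1
  have h2 := T.tY p.1 p.2 p'.2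
  have h3 : Commute ⁅X p.1, Y p.2⁆ ⁅X p'.1, Y p'.2⁆ := by
    rw [commutatorElement_def (X p'.1)]
    exact ((h1.mul_right h2).mul_right h1.inv_right).mul_right h2.inv_right
  exact h3

theorem Two.mulComm (T : Two q X Y) : IsMulCommutative (KK X Y) :=
  Subgroup.isMulCommutative_closure T.genComm

theorem DD_one_left (g : Q) : DD 1 g = 1 := by simp [DD]
theorem DD_one_right (h : Q) : DD h 1 = 1 := by simp [DD]

theorem DD_mul_left {h₁ h₂ g : Q} (hc : Commute (DD h₁ g) h₂) :
    DD (h₁ * h₂) g = DD h₁ g * DD h₂ g := by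
  have h1 : DD (h₁ * h₂) g = h₂⁻¹ * (DD h₁ g) * g⁻¹ * h₂ * g := by
    simp only [DD]; group
  rw [h1, (hc.inv_right).eq.symm]
  simp only [DD]; group

theorem DD_mul_right {h g₁ g₂ : Q} (hc : Commute (DD h g₁) g₂) :
    DD h (g₁ * g₂) = DD h g₂ * DD h g₁ := by
  have h1 : DD h (g₁ * g₂) = h⁻¹ * g₂⁻¹ * h * ((DD h g₁) * g₂) := by
    simp only [DD]; group
  rw [h1, hc.eq]
  simp only [DD]; group

theorem Two.DD_gen (T : Two q X Y) (i j : Fin l) : DD (X i) (Y j) = ⁅X i, Y j⁆ := by
  have h1 := T.tX i j i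
  have h2 := T.tY i j j
  have h3 : X i * Y j = ⁅X i, Y j⁆ * (Y j * X i) := by
    rw [commutatorElement_def]; group
  have h4 : DD (X i) (Y j) = (X i)⁻¹ * (Y j)⁻¹ * (X i * Y j) := by simp only [DD]; group
  have h5 : Commute ⁅X i, Y j⁆ ((X i)⁻¹ * (Y j)⁻¹) := h1.inv_right.mul_right h2.inv_right
  rw [h4, h3, ← mul_assoc, ← h5.eq]
  group

theorem Two.DD_mem (T : Two q X Y) {h : Q} (hh : h ∈ Subgroup.closure (Set.range X)) {g : Q}
    (hg : g ∈ Subgroup.closure (Set.range Y)) : DD h g ∈ KK X Y := by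
  have inv_aux : ∀ h ∈ Subgroup.closure (Set.range X), ∀ g, DD h g ∈ KK X Y →
      DD h⁻¹ g ∈ KK X Y := by
    intro h hh g hd
    have h1 : DD (h⁻¹ * h) g = 1 := by rw [inv_mul_cancel, DD_one_left]
    have h2 : DD (h * h⁻¹) g = 1 := by rw [mul_inv_cancel, DD_one_left]
    rw [DD_mul_left (T.cX hd (inv_mem hh))] at h2
    have h3 : DD h⁻¹ g = (DD h g)⁻¹ := eq_inv_of_mul_eq_one_right h2
    rw [h3]
    exact inv_mem hd
  have inv_aux' : ∀ g ∈ Subgroup.closure (Set.range Y), ∀ h, DD h g ∈ KK X Y →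
      DD h g⁻¹ ∈ KK X Y := by
    intro g hg h hd
    have h2 : DD h (g * g⁻¹) = 1 := by rw [mul_inv_cancel, DD_one_right]
    rw [DD_mul_right (T.cY hd (inv_mem hg))] at h2
    have h3 : DD h g⁻¹ = (DD h g)⁻¹ := eq_inv_of_mul_eq_one_left h2
    rw [h3]
    exact inv_mem hd
  induction hh using Subgroup.closure_induction with
  | mem x hx =>
    obtain ⟨i, rfl⟩ := hx
    induction hg using Subgroup.closure_induction with
    | mem y hy =>
      obtain ⟨j, rfl⟩ := hy
      rw [T.DD_gen]
      exact Subgroup.subset_closure ⟨(i, j), rfl⟩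
    | one => rw [DD_one_right]; exact one_mem _
    | mul a b _ hb' ha hb => rw [DD_mul_right (T.cY ha hb')]; exact mul_mem hb ha
    | inv a ha' ha => exact inv_aux' a ha' _ ha
  | one => rw [DD_one_left]; exact one_mem _
  | mul a b _ hb' ha hb => rw [DD_mul_left (T.cX ha hb')]; exact mul_mem ha hb
  | inv a ha' ha => exact inv_aux a ha' _ ha

theorem Two.pow_q (T : Two q X Y) {z : Q} (hz : z ∈ KK X Y) : z ^ q = 1 := by
  induction hz using Subgroup.closure_induction with
  | mem x hx =>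
    obtain ⟨⟨i, j⟩, rfl⟩ := hx
    change ⁅X i, Y j⁆ ^ q = 1
    have h1 : ∀ n : ℕ, DD (X i ^ n) (Y j) = ⁅X i, Y j⁆ ^ n := by
      intro n
      induction n with
      | zero => rw [pow_zero, pow_zero, DD_one_left]
      | succ n ih =>
        rw [pow_succ, pow_succ, DD_mul_left, ih, T.DD_gen]
        rw [ih]
        exact (T.tX i j i).pow_left n
    rw [← h1, T.powX, DD_one_left]
  | one => exact one_pow _
  | mul a b ha' hb' ha hb =>
    have := T.mulComm
    have h1 : Commute a b := by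
      have := setLike_mul_comm ha' hb'
      exact this
    rw [h1.mul_pow, ha, hb, one_mul]
  | inv a _ ha => rw [inv_pow, ha, inv_one]

end two

section chi

theorem exists_psi (q : ℕ) [NeZero q] {K : Type*} [CommGroup K] (hK : ∀ z : K, z ^ q = 1)
    (χ : AddChar (Additive K) ℂ) :
    ∃ ψ : K →* Multiplicative (ZMod q), ∀ z, ψ z = 1 ↔ χ (Additive.ofMul z) = 1 := by
  have hcard : Nat.card (rootsOfUnity q ℂ) = Nat.card (Multiplicative (ZMod q)) := by
    rw [Complex.card_rootsOfUnity]
    exact (Nat.card_zmod q).symm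
  let e : rootsOfUnity q ℂ ≃* Multiplicative (ZMod q) := mulEquivOfCyclicCardEq hcard
  let f : K →* ℂ :=
    { toFun := fun z => χ (Additive.ofMul z)
      map_one' := by rw [ofMul_one]; exact AddChar.map_zero_eq_one χ
      map_mul' := fun a b => by rw [ofMul_mul]; exact AddChar.map_add_eq_mul χ _ _ }
  let f' : K →* ℂˣ := f.toHomUnits
  have hf' : ∀ z, f' z ∈ rootsOfUnity q ℂ := fun z => by
    rw [mem_rootsOfUnity, ← map_pow, hK, map_one]
  let f'' : K →* rootsOfUnity q ℂ := f'.codRestrict _ hf'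
  refine ⟨e.toMonoidHom.comp f'', fun z => ?_⟩
  have h1 : (e.toMonoidHom.comp f'') z = 1 ↔ f'' z = 1 := by
    change e (f'' z) = 1 ↔ _
    exact map_eq_one_iff e e.injective
  rw [h1]
  have h2 : f'' z = 1 ↔ f' z = 1 := by
    constructor
    · intro h
      exact congrArg Subtype.val h
    · intro h
      exact Subtype.ext h
  rw [h2, ← Units.val_inj, Units.val_one]
  rfl

end chi

section pair2

variable {q l : ℕ} {Q : Type*} [Group Q] {X Y : Fin l → Q}

/-- the commutator homomorphism -/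
noncomputable def Two.dj [NeZero q] (T : Two q X Y) (j : Fin l) :
    (Fin l → Multiplicative (ZMod q)) →* KK X Y where
  toFun := fun y => ⟨DD (MM X T.powX T.commX y) (Y j),
    T.DD_mem (MM_mem X T.powX T.commX y) (Subgroup.subset_closure ⟨j, rfl⟩)⟩
  map_one' := by
    apply Subtype.ext
    change DD (MM X T.powX T.commX 1) (Y j) = 1
    rw [map_one, DD_one_left]
  map_mul' := fun y y' => by
    apply Subtype.ext
    change DD (MM X T.powX T.commX (y * y')) (Y j) =
      DD (MM X T.powX T.commX y) (Y j) * DD (MM X T.powX T.commX y') (Y j)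
    rw [map_mul, DD_mul_left]
    exact T.cX (T.DD_mem (MM_mem X T.powX T.commX y) (Subgroup.subset_closure ⟨j, rfl⟩))
      (MM_mem X T.powX T.commX y')

theorem Two.psi_dj [NeZero q] (T : Two q X Y) (ψ : KK X Y →* Multiplicative (ZMod q)) (j : Fin l)
    (y : Fin l → Multiplicative (ZMod q)) :
    Multiplicative.toAdd (ψ (T.dj j y)) = ∑ i, Multiplicative.toAdd (y i) *
      Multiplicative.toAdd (ψ ⟨⁅X i, Y j⁆, Subgroup.subset_closure ⟨(i, j), rfl⟩⟩) := by
  classical
  let F₁ : (Fin l → Multiplicative (ZMod q)) →* Multiplicative (ZMod q) := ψ.comp (T.dj j)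
  let w : Fin l → ZMod q := fun i =>
    Multiplicative.toAdd (ψ ⟨⁅X i, Y j⁆, Subgroup.subset_closure ⟨(i, j), rfl⟩⟩)
  let F₂ : (Fin l → Multiplicative (ZMod q)) →* Multiplicative (ZMod q) :=
    { toFun := fun y => Multiplicative.ofAdd (∑ i, Multiplicative.toAdd (y i) * w i)
      map_one' := by simp
      map_mul' := fun y y' => by
        rw [← ofAdd_add, ← Finset.sum_add_distrib]
        congr 1
        refine Finset.sum_congr rfl fun i _ => ?_
        rw [Pi.mul_apply, toAdd_mul, add_mul] }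
  have key : F₁ = F₂ := by
    refine MonoidHom.functions_ext _ _ _ fun i x => ?_
    have hx : x = (Multiplicative.ofAdd (1 : ZMod q)) ^ (Multiplicative.toAdd x).val := by
      rw [← ofAdd_nsmul, nsmul_one, ZMod.natCast_zmod_val, ofAdd_toAdd]
    have hx' : (Pi.mulSingle i x : Fin l → Multiplicative (ZMod q)) =
        (Pi.mulSingle i (Multiplicative.ofAdd (1 : ZMod q))) ^ (Multiplicative.toAdd x).val := by
      conv_lhs => rw [hx]
      exact Pi.mulSingle_pow _ _ _
    rw [hx', map_pow, map_pow]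
    congr 1
    have h1 : T.dj j (Pi.mulSingle i (Multiplicative.ofAdd (1 : ZMod q))) =
        ⟨⁅X i, Y j⁆, Subgroup.subset_closure ⟨(i, j), rfl⟩⟩ := by
      apply Subtype.ext
      change DD (MM X T.powX T.commX _) (Y j) = _
      rw [MM_single, T.DD_gen]
    have h2 : F₁ (Pi.mulSingle i (Multiplicative.ofAdd (1 : ZMod q))) =
        ψ ⟨⁅X i, Y j⁆, Subgroup.subset_closure ⟨(i, j), rfl⟩⟩ := by
      change ψ (T.dj j _) = _
      rw [h1]
    rw [h2]
    change _ = Multiplicative.ofAdd (∑ k, Multiplicative.toAdd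
      ((Pi.mulSingle i (Multiplicative.ofAdd (1 : ZMod q)) :
        Fin l → Multiplicative (ZMod q)) k) * w k)
    rw [Finset.sum_eq_single i]
    · rw [Pi.mulSingle_eq_same, toAdd_ofAdd, one_mul]
      rfl
    · intro k _ hk
      rw [Pi.mulSingle_eq_of_ne hk, toAdd_one, zero_mul]
    · intro h
      exact absurd (Finset.mem_univ i) h
  have h3 := congrArg Multiplicative.toAdd (DFunLike.congr_fun key y)
  exact h3

variable {V : Type*} [NormedAddCommGroup V] [InnerProductSpace ℂ V]

theorem Two.pair [Fact q.Prime] [Finite Q] (T : Two q X Y)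
    (hcode : ∀ ψ : KK X Y →* Multiplicative (ZMod q), ψ ≠ 1 →
      Nat.card {v : Fin l → ZMod q // ∀ j, ∑ i, v i * Multiplicative.toAdd
        (ψ ⟨⁅X i, Y j⁆, Subgroup.subset_closure ⟨(i, j), rfl⟩⟩) = 0} * q ^ 8 ≤ q ^ l)
    {ρ : Q →* (V →ₗ[ℂ] V)} (hρ : Iso ρ) (v : V) :
    -(1 / 32) * (‖v - avg ρ (MM X T.powX T.commX) v‖ ^ 2 +
      ‖v - avg ρ (MM Y T.powY T.commY) v‖ ^ 2) ≤
      (⟪v - avg ρ (MM X T.powX T.commX) v, v - avg ρ (MM Y T.powY T.commY) v⟫_ℂ).re := by
  classical
  let _ : CommGroup (KK X Y) :=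
    { (inferInstance : Group (KK X Y)) with
      mul_comm := fun a b => by
        have := T.mulComm
        exact Subtype.ext (setLike_mul_comm a.2 b.2) }
  let _ : Fintype (Additive (KK X Y)) := Fintype.ofFinite _
  let κ : Multiplicative (Additive (KK X Y)) →* Q :=
    { toFun := fun z => ((Additive.toMul (Multiplicative.toAdd z) : KK X Y) : Q)
      map_one' := rfl
      map_mul' := fun _ _ => rfl }
  have hκ : ∀ z, κ z ∈ KK X Y := fun z => (Additive.toMul (Multiplicative.toAdd z)).2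
  have hq2 : 2 ≤ q := (Fact.out : q.Prime).two_le
  have hqr : (2 : ℝ) ≤ q := by exact_mod_cast hq2
  have hq0 : (0 : ℝ) < q := by linarith
  have h16 : (16 : ℝ) ≤ (q : ℝ) ^ 4 := by
    calc (16 : ℝ) = 2 ^ 4 := by norm_num
      _ ≤ (q : ℝ) ^ 4 := pow_le_pow_left₀ (by norm_num) hqr 4
  have h := pair_main (κ := κ) (m₁ := MM X T.powX T.commX) (m₂ := MM Y T.powY T.commY) hρ
    (fun z h => (T.cX (hκ z) (MM_mem X T.powX T.commX h)).eq)
    (fun z h => (T.cY (hκ z) (MM_mem Y T.powY T.commY h)).eq)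
    (fun y t => Additive.ofMul ⟨DD (MM X T.powX T.commX y) (MM Y T.powY T.commY t),
      T.DD_mem (MM_mem _ _ _ _) (MM_mem _ _ _ _)⟩)
    (fun y t => by
      change _ = _ * _ * DD (MM X T.powX T.commX y) (MM Y T.powY T.commY t)
      simp only [DD]
      group)
    (ε := 1 / 16) (by norm_num) (by norm_num) ?_ v
  · have e : -(1 / 16 / 2 : ℝ) = -(1 / 32) := by norm_num
    rw [e] at h
    exact h
  · intro χ hχ
    obtain ⟨ψ, hψ⟩ := exists_psi q (K := KK X Y) (fun z => Subtype.ext (T.pow_q z.2)) χ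
    have hψ1 : ψ ≠ 1 := by
      rintro rfl
      obtain ⟨z, hz⟩ := hχ
      exact hz ((hψ (Additive.toMul z)).1 rfl)
    have h1 := hcode ψ hψ1
    set S := {v : Fin l → ZMod q // ∀ j, ∑ i, v i * Multiplicative.toAdd
        (ψ ⟨⁅X i, Y j⁆, Subgroup.subset_closure ⟨(i, j), rfl⟩⟩) = 0} with hS
    have h2 : Nat.card {y : Fin l → Multiplicative (ZMod q) // ∀ t, χ (Additive.ofMul
        (⟨DD (MM X T.powX T.commX y) (MM Y T.powY T.commY t),
        T.DD_mem (MM_mem _ _ _ _) (MM_mem _ _ _ _)⟩ : KK X Y)) = 1} ≤ Nat.card S := by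
      refine Nat.card_le_card_of_injective (fun y => (⟨fun i => Multiplicative.toAdd (y.1 i),
        fun j => ?_⟩ : S)) ?_
      · rw [← T.psi_dj ψ j y.1]
        have h3 := y.2 (Pi.mulSingle j (Multiplicative.ofAdd 1))
        rw [← hψ] at h3
        have h4 : T.dj j y.1 = ⟨DD (MM X T.powX T.commX y.1) (MM Y T.powY T.commY
            (Pi.mulSingle j (Multiplicative.ofAdd 1))),
            T.DD_mem (MM_mem _ _ _ _) (MM_mem _ _ _ _)⟩ := by
          apply Subtype.ext
          change DD (MM X T.powX T.commX y.1) (Y j) = DD _ _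
          rw [MM_single]
        rw [h4, h3, toAdd_one]
      · intro y y' h
        have h5 := congrArg Subtype.val h
        apply Subtype.ext
        funext i
        exact congrFun h5 i
    have h6 : (Nat.card S : ℝ) * (q : ℝ) ^ 8 ≤ (q : ℝ) ^ l := by exact_mod_cast h1
    have h7 : (Fintype.card (Fin l → Multiplicative (ZMod q)) : ℝ) = (q : ℝ) ^ l := by
      rw [Fintype.card_fun, Fintype.card_fin]
      have : Fintype.card (Multiplicative (ZMod q)) = q := by
        rw [Fintype.card_multiplicative, ZMod.card]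
      rw [this]
      push_cast
      rfl
    rw [h7]
    have h8 : (256 : ℝ) ≤ (q : ℝ) ^ 8 := by
      calc (256 : ℝ) = 2 ^ 8 := by norm_num
        _ ≤ (q : ℝ) ^ 8 := pow_le_pow_left₀ (by norm_num) hqr 8
    have h9 : (Nat.card S : ℝ) ≤ (1 / 16) ^ 2 * (q : ℝ) ^ l := by
      have h10 : (Nat.card S : ℝ) * 256 ≤ (Nat.card S : ℝ) * (q : ℝ) ^ 8 :=
        mul_le_mul_of_nonneg_left h8 (Nat.cast_nonneg _)
      linarith
    exact le_trans (by exact_mod_cast h2) h9

end pair2

end Vale.Agent.P260.H662
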