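import Vale.Agent.P260.H662.Rep

/-!
# P260, block C2: two subgroups with central commutators
-/

namespace Vale.Agent.P260.H662

open scoped InnerProductSpace ComplexConjugate
open Finset

section resolution

variable {V : Type*} [NormedAddCommGroup V] [InnerProductSpace ℂ V]
variable {ι : Type*} [Fintype ι] {P : ι → V →ₗ[ℂ] V}

theorem inner_eq_sum (hP : ∀ i, Proj (P i)) (hsum : ∀ v, ∑ i, P i v = v) (x y : V) :
    ⟪x, y⟫_ℂ = ∑ i, ⟪P i x, P i y⟫_ℂ := by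
  conv_lhs => rw [← hsum y]
  rw [inner_sum]
  refine Finset.sum_congr rfl fun i _ => ?_
  rw [(hP i).symm, (hP i).idem]

theorem norm_sq_eq_sum (hP : ∀ i, Proj (P i)) (hsum : ∀ v, ∑ i, P i v = v) (x : V) :
    ‖x‖ ^ 2 = ∑ i, ‖P i x‖ ^ 2 := by
  have h := inner_eq_sum hP hsum x x
  have h2 := congrArg Complex.re h
  rw [Complex.re_sum] at h2
  have h3 : ∀ z : V, (⟪z, z⟫_ℂ).re = ‖z‖ ^ 2 := fun z => by
    simpa using inner_self_eq_norm_sq (𝕜 := ℂ) z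
  simpa only [h3] using h2

theorem pair_of_resolution (hP : ∀ i, Proj (P i)) (hsum : ∀ v, ∑ i, P i v = v)
    {p q : V →ₗ[ℂ] V} (hp : ∀ i v, P i (p v) = p (P i v)) (hq : ∀ i v, P i (q v) = q (P i v))
    {ε : ℝ} (h : ∀ i w, P i w = w → -(ε / 2) * (‖w - p w‖ ^ 2 + ‖w - q w‖ ^ 2) ≤
      (⟪w - p w, w - q w⟫_ℂ).re) (v : V) :
    -(ε / 2) * (‖v - p v‖ ^ 2 + ‖v - q v‖ ^ 2) ≤ (⟪v - p v, v - q v⟫_ℂ).re := by
  rw [norm_sq_eq_sum hP hsum (v - p v), norm_sq_eq_sum hP hsum (v - q v),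
    inner_eq_sum hP hsum (v - p v) (v - q v), ← Finset.sum_add_distrib, Finset.mul_sum,
    Complex.re_sum]
  refine Finset.sum_le_sum fun i _ => ?_
  have e1 : P i (v - p v) = P i v - p (P i v) := by rw [map_sub, hp]
  have e2 : P i (v - q v) = P i v - q (P i v) := by rw [map_sub, hq]
  rw [e1, e2]
  exact h i (P i v) ((hP i).idem v)

end resolution

section chars

variable {V : Type*} [NormedAddCommGroup V] [InnerProductSpace ℂ V]
variable {Q : Type*} [Group Q] (ρ : Q →* (V →ₗ[ℂ] V))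
variable {Z : Type*} [AddCommGroup Z] [Fintype Z] (κ : Multiplicative Z →* Q)

/-- the projection to an isotypic component -/
noncomputable def cp (χ : AddChar Z ℂ) : V →ₗ[ℂ] V :=
  ((Fintype.card Z : ℂ)⁻¹) • ∑ z : Z, χ (-z) • ρ (κ (Multiplicative.ofAdd z))

theorem cp_apply (χ : AddChar Z ℂ) (v : V) : cp ρ κ χ v =
    ((Fintype.card Z : ℂ)⁻¹) • ∑ z : Z, χ (-z) • ρ (κ (Multiplicative.ofAdd z)) v := by
  simp [cp]

theorem cp_eig (χ : AddChar Z ℂ) (z : Z) (v : V) :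
    ρ (κ (Multiplicative.ofAdd z)) (cp ρ κ χ v) = χ z • cp ρ κ χ v := by
  rw [cp_apply, map_smul, map_sum, smul_comm]
  congr 1
  rw [← Equiv.sum_comp (Equiv.addLeft z)
    (fun x => χ (-x) • ρ (κ (Multiplicative.ofAdd x)) v), Finset.smul_sum]
  refine Finset.sum_congr rfl fun x _ => ?_
  have e : χ (-x) = χ z * χ (-(z + x)) := by
    rw [← AddChar.map_add_eq_mul]
    congr 1
    abel
  rw [map_smul, ← rho_mul, ← map_mul, ← ofAdd_add, Equiv.coe_addLeft, smul_smul, e]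

theorem card_inv_mul : ((Fintype.card Z : ℂ)⁻¹) * (Fintype.card Z : ℂ) = 1 :=
  inv_mul_cancel₀ (by exact_mod_cast Fintype.card_ne_zero)

theorem cp_of_eig (χ : AddChar Z ℂ) (v : V)
    (hv : ∀ z, ρ (κ (Multiplicative.ofAdd z)) v = χ z • v) : cp ρ κ χ v = v := by
  rw [cp_apply]
  have : ∀ z ∈ (Finset.univ : Finset Z),
      χ (-z) • ρ (κ (Multiplicative.ofAdd z)) v = v := fun z _ => by
    rw [hv, smul_smul, ← AddChar.map_add_eq_mul, neg_add_cancel, AddChar.map_zero_eq_one,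
      one_smul]
  rw [Finset.sum_congr rfl this, Finset.sum_const, Finset.card_univ, ← Nat.cast_smul_eq_nsmul ℂ,
    smul_smul, card_inv_mul, one_smul]

variable {ρ}

theorem Iso.cp_proj (hρ : Iso ρ) (χ : AddChar Z ℂ) : Proj (cp ρ κ χ) where
  idem := fun v => cp_of_eig ρ κ χ _ fun z => cp_eig ρ κ χ z v
  symm := fun v w => by
    rw [cp_apply, cp_apply, inner_smul_left, inner_smul_right, sum_inner, inner_sum]
    congr 1
    · simp
    · rw [← Equiv.sum_comp (Equiv.neg Z)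
        (fun k => ⟪v, χ (-k) • ρ (κ (Multiplicative.ofAdd k)) w⟫_ℂ)]
      refine Finset.sum_congr rfl fun k _ => ?_
      rw [inner_smul_left, inner_smul_right, hρ.adj, Equiv.neg_apply, neg_neg,
        AddChar.map_neg_eq_conj, Complex.conj_conj, ofAdd_neg, map_inv κ]

theorem sum_cp (v : V) : ∑ χ : AddChar Z ℂ, cp ρ κ χ v = v := by
  classical
  have h1 : ∀ χ : AddChar Z ℂ, cp ρ κ χ v =
      ((Fintype.card Z : ℂ)⁻¹) • ∑ z : Z, χ (-z) • ρ (κ (Multiplicative.ofAdd z)) v :=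
    fun χ => cp_apply ρ κ χ v
  simp only [h1]
  rw [← Finset.smul_sum, Finset.sum_comm]
  have h2 : ∀ z : Z, ∑ χ : AddChar Z ℂ, χ (-z) • ρ (κ (Multiplicative.ofAdd z)) v =
      if z = 0 then (Fintype.card Z : ℂ) • v else 0 := fun z => by
    rw [← Finset.sum_smul, AddChar.sum_apply_eq_ite]
    by_cases hz : z = 0
    · subst hz
      rw [if_pos neg_zero, if_pos rfl, ofAdd_zero, map_one κ, rho_one]
    · rw [if_neg (by simpa using hz), if_neg hz, zero_smul]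
  simp only [h2]
  rw [Finset.sum_ite_eq' Finset.univ (0 : Z), if_pos (Finset.mem_univ _), smul_smul,
    card_inv_mul, one_smul]

theorem cp_comm (g : Q) (hg : ∀ z, κ z * g = g * κ z) (χ : AddChar Z ℂ) (v : V) :
    ρ g (cp ρ κ χ v) = cp ρ κ χ (ρ g v) := by
  rw [cp_apply, cp_apply, map_smul, map_sum]
  congr 1
  refine Finset.sum_congr rfl fun k _ => ?_
  rw [map_smul, ← rho_mul, ← rho_mul, hg]

end chars

section pair

variable {V : Type*} [NormedAddCommGroup V] [InnerProductSpace ℂ V]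
variable {Q : Type*} [Group Q] {ρ : Q →* (V →ₗ[ℂ] V)}
variable {Z : Type*} [AddCommGroup Z] [Fintype Z] {κ : Multiplicative Z →* Q}
variable {H₁ H₂ : Type*} [Group H₁] [Fintype H₁] [Group H₂] [Fintype H₂]
variable {m₁ : H₁ →* Q} {m₂ : H₂ →* Q}

theorem cp_avg (m₁ : H₁ →* Q) (hc : ∀ z h, κ z * m₁ h = m₁ h * κ z) (χ : AddChar Z ℂ) (v : V) :
    cp ρ κ χ (avg ρ m₁ v) = avg ρ m₁ (cp ρ κ χ v) := by
  rw [avg_apply, avg_apply, map_smul, map_sum]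
  congr 1
  refine Finset.sum_congr rfl fun k _ => ?_
  rw [cp_comm κ (m₁ k) fun z => hc z k]

/-- the bound on a nontrivial component -/
theorem avg_small (hρ : Iso ρ) (c : H₁ → H₂ → Z)
    (hcc : ∀ y t, m₁ y * m₂ t = m₂ t * m₁ y * κ (Multiplicative.ofAdd (c y t)))
    (χ : AddChar Z ℂ) {δ : ℝ}
    (hcount : (Nat.card {y : H₁ // ∀ t, χ (c y t) = 1} : ℝ) ≤ δ * Fintype.card H₁)
    (u : V) (hu : ∀ z, ρ (κ (Multiplicative.ofAdd z)) u = χ z • u)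
    (hu2 : ∀ t, ρ (m₂ t) u = u) :
    ‖avg ρ m₁ u‖ ^ 2 ≤ δ * ‖u‖ ^ 2 := by
  classical
  have hP := hρ.avg_proj m₁
  have h1 : ‖avg ρ m₁ u‖ ^ 2 = (⟪avg ρ m₁ u, u⟫_ℂ).re := by
    rw [hP.inner_self]
    simpa using (inner_self_eq_norm_sq (𝕜 := ℂ) (avg ρ m₁ u)).symm
  have hcard : (0 : ℝ) < Fintype.card H₁ := by exact_mod_cast Fintype.card_pos
  have h2 : ∀ y : H₁, (¬ ∀ t, χ (c y t) = 1) → ⟪ρ (m₁ y) u, u⟫_ℂ = 0 := by
    intro y hy
    push Not at hy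
    obtain ⟨t, ht⟩ := hy
    have e1 : ⟪ρ (m₁ y) u, u⟫_ℂ = conj (χ (c y t)) * ⟪ρ (m₁ y) u, u⟫_ℂ := by
      calc ⟪ρ (m₁ y) u, u⟫_ℂ = ⟪ρ (m₁ y) (ρ (m₂ t) u), ρ (m₂ t) u⟫_ℂ := by rw [hu2]
        _ = ⟪ρ (m₂ t) (ρ (m₁ y) (ρ (κ (Multiplicative.ofAdd (c y t))) u)), ρ (m₂ t) u⟫_ℂ := by
          rw [← rho_mul, ← rho_mul, ← rho_mul, hcc, mul_assoc]
        _ = ⟪ρ (m₁ y) (ρ (κ (Multiplicative.ofAdd (c y t))) u), u⟫_ℂ := hρ _ _ _
        _ = _ := by rw [hu, map_smul, inner_smul_left]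
    have e2 : (1 - conj (χ (c y t))) * ⟪ρ (m₁ y) u, u⟫_ℂ = 0 := by
      rw [sub_mul, one_mul, sub_eq_zero]; exact e1
    rcases mul_eq_zero.1 e2 with h | h
    · exfalso
      apply ht
      have : conj (χ (c y t)) = 1 := (sub_eq_zero.1 h).symm
      have h' := congrArg conj this
      simpa using h'
    · exact h
  have h3 : ∀ y : H₁, (⟪ρ (m₁ y) u, u⟫_ℂ).re ≤ if (∀ t, χ (c y t) = 1) then ‖u‖ ^ 2 else 0 := by
    intro y
    split_ifs with h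
    · calc (⟪ρ (m₁ y) u, u⟫_ℂ).re ≤ ‖⟪ρ (m₁ y) u, u⟫_ℂ‖ := Complex.re_le_norm _
        _ ≤ ‖ρ (m₁ y) u‖ * ‖u‖ := norm_inner_le_norm _ _
        _ = ‖u‖ ^ 2 := by rw [hρ.norm, sq]
    · rw [h2 y h, Complex.zero_re]
  have h4 : (⟪avg ρ m₁ u, u⟫_ℂ).re = (Fintype.card H₁ : ℝ)⁻¹ * ∑ y, (⟪ρ (m₁ y) u, u⟫_ℂ).re := by
    rw [avg_apply, inner_smul_left, sum_inner]
    have : (conj ((Fintype.card H₁ : ℂ)⁻¹)) = (((Fintype.card H₁ : ℝ)⁻¹ : ℝ) : ℂ) := by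
      simp
    rw [this, Complex.re_ofReal_mul, Complex.re_sum]
  have h5 : ∑ y, (⟪ρ (m₁ y) u, u⟫_ℂ).re ≤ δ * Fintype.card H₁ * ‖u‖ ^ 2 := by
    calc ∑ y, (⟪ρ (m₁ y) u, u⟫_ℂ).re ≤
        ∑ y : H₁, if (∀ t, χ (c y t) = 1) then ‖u‖ ^ 2 else 0 :=
          Finset.sum_le_sum fun y _ => h3 y
      _ = (Nat.card {y : H₁ // ∀ t, χ (c y t) = 1} : ℝ) * ‖u‖ ^ 2 := by
        rw [← Finset.sum_filter, Finset.sum_const, nsmul_eq_mul, Nat.card_eq_fintype_card,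
          Fintype.card_subtype]
      _ ≤ _ := mul_le_mul_of_nonneg_right hcount (by positivity)
  rw [h1, h4]
  calc (Fintype.card H₁ : ℝ)⁻¹ * ∑ y, (⟪ρ (m₁ y) u, u⟫_ℂ).re
      ≤ (Fintype.card H₁ : ℝ)⁻¹ * (δ * Fintype.card H₁ * ‖u‖ ^ 2) :=
        mul_le_mul_of_nonneg_left h5 (by positivity)
    _ = δ * ‖u‖ ^ 2 := by field_simp

/-- **The pair estimate.** -/
theorem pair_main (hρ : Iso ρ) (hc₁ : ∀ z h, κ z * m₁ h = m₁ h * κ z)
    (hc₂ : ∀ z h, κ z * m₂ h = m₂ h * κ z) (c : H₁ → H₂ → Z)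
    (hcc : ∀ y t, m₁ y * m₂ t = m₂ t * m₁ y * κ (Multiplicative.ofAdd (c y t)))
    {ε : ℝ} (hε0 : 0 ≤ ε) (hε1 : ε ≤ 1)
    (hcount : ∀ χ : AddChar Z ℂ, (∃ z, χ z ≠ 1) →
      (Nat.card {y : H₁ // ∀ t, χ (c y t) = 1} : ℝ) ≤ ε ^ 2 * Fintype.card H₁) (v : V) :
    -(ε / 2) * (‖v - avg ρ m₁ v‖ ^ 2 + ‖v - avg ρ m₂ v‖ ^ 2) ≤
      (⟪v - avg ρ m₁ v, v - avg ρ m₂ v⟫_ℂ).re := by
  classical
  refine pair_of_resolution (P := cp ρ κ) (fun χ => hρ.cp_proj κ χ) (fun v => sum_cp κ v)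
    (fun χ v => cp_avg m₁ hc₁ χ v) (fun χ v => cp_avg m₂ hc₂ χ v) ?_ v
  intro χ w hw
  have hwe : ∀ z, ρ (κ (Multiplicative.ofAdd z)) w = χ z • w := fun z => by
    rw [← hw]; exact cp_eig ρ κ χ z w
  by_cases htriv : ∃ z, χ z ≠ 1
  · refine re_ge_of_angle (hρ.avg_proj m₁) (hρ.avg_proj m₂) w hε0 hε1 ?_
    have h1 := avg_small hρ c hcc χ (hcount χ htriv) (avg ρ m₂ w) (fun z => by
      rw [avg_comm m₂ _ (fun h => hc₂ _ h), hwe, map_smul]) (fun t => avg_fix ρ m₂ t w)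
    rw [← mul_pow] at h1
    exact (pow_le_pow_iff_left₀ (norm_nonneg _) (by positivity) two_ne_zero).1 h1
  · push Not at htriv
    have hinv : ∀ z, ρ (κ z) w = w := fun z => by
      have := hwe (Multiplicative.toAdd z)
      rwa [htriv, one_smul, ofAdd_toAdd] at this
    have h1 : avg ρ m₁ (avg ρ m₂ w) = avg ρ m₂ (avg ρ m₁ w) := by
      rw [avg_apply ρ m₂ w, avg_apply ρ m₁ w, map_smul, map_smul, map_sum, map_sum]
      simp only [avg_apply]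
      rw [← Finset.smul_sum, ← Finset.smul_sum, Finset.sum_comm, smul_comm]
      congr 2
      refine Finset.sum_congr rfl fun y _ => Finset.sum_congr rfl fun t _ => ?_
      rw [← rho_mul, hcc, rho_mul, rho_mul, hinv]
    have h2 := re_nonneg_of_comm (hρ.avg_proj m₁) (hρ.avg_proj m₂) w h1
    refine le_trans ?_ h2
    have : 0 ≤ (ε / 2) * (‖w - avg ρ m₁ w‖ ^ 2 + ‖w - avg ρ m₂ w‖ ^ 2) := by positivity
    linarith

end pair

end Vale.Agent.P260.H662
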