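import Mathlib

/-!
# P260, block C2: averages in isometric representations, two projections
-/

namespace Vale.Agent.P260.H662

open scoped InnerProductSpace ComplexConjugate
open Finset

section two

variable {V : Type*} [NormedAddCommGroup V] [InnerProductSpace ℂ V]

/-- a symmetric idempotent -/
structure Proj (p : V →ₗ[ℂ] V) : Prop where
  idem : ∀ v, p (p v) = p v
  symm : ∀ v w, ⟪p v, w⟫_ℂ = ⟪v, p w⟫_ℂ

theorem Proj.inner_self {p : V →ₗ[ℂ] V} (hp : Proj p) (v : V) : ⟪p v, v⟫_ℂ = ⟪p v, p v⟫_ℂ := by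
  conv_lhs => rw [← hp.idem v]
  exact hp.symm _ _

theorem Proj.inner_self' {p : V →ₗ[ℂ] V} (hp : Proj p) (v : V) : ⟪v, p v⟫_ℂ = ⟪p v, p v⟫_ℂ := by
  rw [← hp.symm, hp.inner_self]

theorem Proj.compl {p : V →ₗ[ℂ] V} (hp : Proj p) : Proj (LinearMap.id - p) where
  idem := fun v => by simp [hp.idem]
  symm := fun v w => by
    rw [LinearMap.sub_apply, LinearMap.sub_apply, inner_sub_left, inner_sub_right, hp.symm]
    rfl

/-- commuting projections -/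
theorem re_nonneg_of_comm {p q : V →ₗ[ℂ] V} (hp : Proj p) (hq : Proj q) (w : V)
    (h : p (q w) = q (p w)) : 0 ≤ (⟪w - p w, w - q w⟫_ℂ).re := by
  have hp' := hp.compl
  have hq' := hq.compl
  set r : V →ₗ[ℂ] V := LinearMap.id - p with hr
  set s : V →ₗ[ℂ] V := LinearMap.id - q with hs
  have e1 : w - p w = r w := by simp [hr]
  have e2 : w - q w = s w := by simp [hs]
  have e3 : r (s w) = s (r w) := by
    simp only [hr, hs, LinearMap.sub_apply, LinearMap.id_apply, map_sub, h]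
    abel
  rw [e1, e2]
  have e4 : ⟪r w, s w⟫_ℂ = ⟪s (r w), s (r w)⟫_ℂ := by
    calc ⟪r w, s w⟫_ℂ = ⟪r (r w), s w⟫_ℂ := by rw [hp'.idem]
      _ = ⟪r w, r (s w)⟫_ℂ := hp'.symm _ _
      _ = ⟪r w, s (r w)⟫_ℂ := by rw [e3]
      _ = ⟪s (r w), s (r w)⟫_ℂ := hq'.inner_self' _
  rw [e4]
  have := inner_self_nonneg (𝕜 := ℂ) (x := s (r w))
  simpa using this

theorem real_key {ε s r W : ℝ} (hε0 : 0 ≤ ε) (hε1 : ε ≤ 1) (hs0 : 0 ≤ s) (hsr : 0 ≤ s + 2 * r)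
    (hrle : 2 * r ≤ ε * s) (cs : s ^ 2 ≤ W ^ 2 * (s + 2 * r)) :
    (2 + ε) * s - 2 * r ≤ (2 + 2 * ε) * W ^ 2 := by
  rcases eq_or_lt_of_le hsr with h0 | hpos
  · have h1 : s ^ 2 ≤ 0 := by rw [← h0, mul_zero] at cs; exact cs
    have hs1 : s = 0 := by
      have : s ^ 2 = 0 := le_antisymm h1 (sq_nonneg s)
      exact pow_eq_zero_iff two_ne_zero |>.1 this
    have hr1 : r = 0 := by linarith
    rw [hs1, hr1]
    have : 0 ≤ (2 + 2 * ε) * W ^ 2 := by positivity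
    linarith
  · have h7 : 0 ≤ (ε * s - 2 * r) * (s - 2 * r) := by
      refine mul_nonneg (by linarith) ?_
      have : ε * s ≤ 1 * s := mul_le_mul_of_nonneg_right hε1 hs0
      linarith
    have h6 : ((2 + ε) * s - 2 * r) * (s + 2 * r) ≤ (2 + 2 * ε) * s ^ 2 := by
      have : (2 + 2 * ε) * s ^ 2 - ((2 + ε) * s - 2 * r) * (s + 2 * r) =
        (ε * s - 2 * r) * (s - 2 * r) := by ring
      linarith
    have h5 : ((2 + ε) * s - 2 * r) * (s + 2 * r) ≤ ((2 + 2 * ε) * W ^ 2) * (s + 2 * r) := by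
      calc _ ≤ (2 + 2 * ε) * s ^ 2 := h6
        _ ≤ (2 + 2 * ε) * (W ^ 2 * (s + 2 * r)) :=
          mul_le_mul_of_nonneg_left cs (by linarith)
        _ = _ := by ring
    exact le_of_mul_le_mul_right h5 hpos

theorem re_ge_of_angle {p q : V →ₗ[ℂ] V} (hp : Proj p) (hq : Proj q) (w : V) {ε : ℝ}
    (hε0 : 0 ≤ ε) (hε1 : ε ≤ 1) (h : ‖p (q w)‖ ≤ ε * ‖q w‖) :
    -(ε / 2) * (‖w - p w‖ ^ 2 + ‖w - q w‖ ^ 2) ≤ (⟪w - p w, w - q w⟫_ℂ).re := by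
  set a := p w with ha
  set b := q w with hb
  -- scalar quantities
  set r : ℝ := (⟪a, b⟫_ℂ).re with hr
  set s : ℝ := ‖a‖ ^ 2 + ‖b‖ ^ 2 with hs
  have haw : (⟪w, a⟫_ℂ).re = ‖a‖ ^ 2 := by
    rw [ha, hp.inner_self', ← ha]
    simpa using inner_self_eq_norm_sq (𝕜 := ℂ) a
  have hwa : (⟪a, w⟫_ℂ).re = ‖a‖ ^ 2 := by
    rw [ha, hp.inner_self, ← ha]
    simpa using inner_self_eq_norm_sq (𝕜 := ℂ) a
  have hwb : (⟪w, b⟫_ℂ).re = ‖b‖ ^ 2 := by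
    rw [hb, hq.inner_self', ← hb]
    simpa using inner_self_eq_norm_sq (𝕜 := ℂ) b
  have hbw : (⟪b, w⟫_ℂ).re = ‖b‖ ^ 2 := by
    rw [hb, hq.inner_self, ← hb]
    simpa using inner_self_eq_norm_sq (𝕜 := ℂ) b
  have hww : (⟪w, w⟫_ℂ).re = ‖w‖ ^ 2 := by
    simpa using inner_self_eq_norm_sq (𝕜 := ℂ) w
  have hba : (⟪b, a⟫_ℂ).re = r := by
    rw [hr, ← inner_conj_symm, Complex.conj_re]
  have haa : (⟪a, a⟫_ℂ).re = ‖a‖ ^ 2 := by
    simpa using inner_self_eq_norm_sq (𝕜 := ℂ) a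
  have hbb : (⟪b, b⟫_ℂ).re = ‖b‖ ^ 2 := by
    simpa using inner_self_eq_norm_sq (𝕜 := ℂ) b
  -- norms
  have n1 : ‖w - a‖ ^ 2 = ‖w‖ ^ 2 - ‖a‖ ^ 2 := by
    have := inner_self_eq_norm_sq (𝕜 := ℂ) (w - a)
    rw [← this]
    simp only [inner_sub_left, inner_sub_right, map_sub]
    change (⟪w, w⟫_ℂ).re - (⟪a, w⟫_ℂ).re - ((⟪w, a⟫_ℂ).re - (⟪a, a⟫_ℂ).re) = _
    rw [haw, hwa, hww, haa]; ring
  have n2 : ‖w - b‖ ^ 2 = ‖w‖ ^ 2 - ‖b‖ ^ 2 := by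
    have := inner_self_eq_norm_sq (𝕜 := ℂ) (w - b)
    rw [← this]
    simp only [inner_sub_left, inner_sub_right, map_sub]
    change (⟪w, w⟫_ℂ).re - (⟪b, w⟫_ℂ).re - ((⟪w, b⟫_ℂ).re - (⟪b, b⟫_ℂ).re) = _
    rw [hwb, hbw, hww, hbb]; ring
  have n3 : (⟪w - a, w - b⟫_ℂ).re = ‖w‖ ^ 2 - ‖a‖ ^ 2 - ‖b‖ ^ 2 + r := by
    simp only [inner_sub_left, inner_sub_right, Complex.sub_re]
    rw [hww, hwb, hwa]; ring
  have n4 : ‖a + b‖ ^ 2 = s + 2 * r := by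
    have := inner_self_eq_norm_sq (𝕜 := ℂ) (a + b)
    rw [← this]
    simp only [inner_add_left, inner_add_right, map_add]
    change (⟪a, a⟫_ℂ).re + (⟪b, a⟫_ℂ).re + ((⟪a, b⟫_ℂ).re + (⟪b, b⟫_ℂ).re) = _
    rw [haa, hba, hbb, ← hr, hs]; ring
  -- Cauchy-Schwarz
  have cs : s ^ 2 ≤ ‖w‖ ^ 2 * (s + 2 * r) := by
    have h1 : (⟪w, a + b⟫_ℂ).re = s := by
      rw [inner_add_right, Complex.add_re, haw, hwb]
    have h2 : |(⟪w, a + b⟫_ℂ).re| ≤ ‖w‖ * ‖a + b‖ :=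
      (Complex.abs_re_le_norm _).trans (norm_inner_le_norm _ _)
    rw [h1] at h2
    calc s ^ 2 = |s| ^ 2 := (sq_abs s).symm
      _ ≤ (‖w‖ * ‖a + b‖) ^ 2 := pow_le_pow_left₀ (abs_nonneg _) h2 2
      _ = ‖w‖ ^ 2 * (s + 2 * r) := by rw [mul_pow, n4]
  -- the angle
  have hrle : 2 * r ≤ ε * s := by
    have h1 : ⟪a, b⟫_ℂ = ⟪a, p b⟫_ℂ := by
      rw [ha, ← hp.symm, hp.idem]
    have h2 : |r| ≤ ‖a‖ * (ε * ‖b‖) := by
      rw [hr, h1]
      refine (Complex.abs_re_le_norm _).trans ((norm_inner_le_norm _ _).trans ?_)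
      exact mul_le_mul_of_nonneg_left h (norm_nonneg _)
    have h3 : r ≤ ‖a‖ * (ε * ‖b‖) := (le_abs_self r).trans h2
    have h4 : 2 * (‖a‖ * ‖b‖) ≤ s := by
      rw [hs]; nlinarith [sq_nonneg (‖a‖ - ‖b‖)]
    nlinarith [mul_le_mul_of_nonneg_left h4 hε0]
  have hs0 : 0 ≤ s := by rw [hs]; positivity
  have hsr : 0 ≤ s + 2 * r := by rw [← n4]; positivity
  rw [n1, n2, n3]
  have key := real_key hε0 hε1 hs0 hsr hrle cs
  rw [hs] at key
  linarith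

end two

section rep

variable {V : Type*} [NormedAddCommGroup V] [InnerProductSpace ℂ V]
variable {Q : Type*} [Group Q] (ρ : Q →* (V →ₗ[ℂ] V))

/-- the representation is isometric -/
def Iso : Prop := ∀ g v w, ⟪ρ g v, ρ g w⟫_ℂ = ⟪v, w⟫_ℂ

variable {ρ}

theorem rho_mul (g h : Q) (v : V) : ρ (g * h) v = ρ g (ρ h v) := by
  rw [map_mul]; rfl

theorem rho_one (v : V) : ρ 1 v = v := by
  rw [map_one]; rfl

theorem Iso.adj (hρ : Iso ρ) (g : Q) (v w : V) : ⟪ρ g v, w⟫_ℂ = ⟪v, ρ g⁻¹ w⟫_ℂ := by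
  rw [← hρ g v (ρ g⁻¹ w), ← rho_mul, mul_inv_cancel, rho_one]

theorem Iso.norm (hρ : Iso ρ) (g : Q) (v : V) : ‖ρ g v‖ = ‖v‖ := by
  have := hρ g v v
  rw [inner_self_eq_norm_sq_to_K, inner_self_eq_norm_sq_to_K] at this
  have h2 : ‖ρ g v‖ ^ 2 = ‖v‖ ^ 2 := by exact_mod_cast this
  exact (pow_left_inj₀ (norm_nonneg _) (norm_nonneg _) two_ne_zero).1 h2

variable (ρ)
variable {H : Type*} [Group H] [Fintype H]

/-- the average over a finite group -/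
noncomputable def avg (m : H →* Q) : V →ₗ[ℂ] V :=
  ((Fintype.card H : ℂ)⁻¹) • ∑ h, ρ (m h)

theorem avg_apply (m : H →* Q) (v : V) :
    avg ρ m v = ((Fintype.card H : ℂ)⁻¹) • ∑ h, ρ (m h) v := by
  simp [avg]

theorem avg_fix (m : H →* Q) (h : H) (v : V) : ρ (m h) (avg ρ m v) = avg ρ m v := by
  rw [avg_apply, map_smul, map_sum]
  congr 1
  rw [← Equiv.sum_comp (Equiv.mulLeft h) (fun k => ρ (m k) v)]
  refine Finset.sum_congr rfl fun k _ => ?_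
  rw [Equiv.coe_mulLeft, map_mul, rho_mul]

theorem avg_of_fixed (m : H →* Q) (v : V) (hv : ∀ h, ρ (m h) v = v) : avg ρ m v = v := by
  rw [avg_apply, Finset.sum_congr rfl fun h _ => hv h, Finset.sum_const, Finset.card_univ,
    ← Nat.cast_smul_eq_nsmul ℂ, smul_smul, inv_mul_cancel₀, one_smul]
  exact_mod_cast Fintype.card_ne_zero

variable {ρ}

theorem Iso.avg_proj (hρ : Iso ρ) (m : H →* Q) : Proj (avg ρ m) where
  idem := fun v => avg_of_fixed ρ m _ fun h => avg_fix ρ m h v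
  symm := fun v w => by
    rw [avg_apply, avg_apply, inner_smul_left, inner_smul_right, sum_inner, inner_sum]
    congr 1
    · simp
    · rw [← Equiv.sum_comp (Equiv.inv H) (fun k => ⟪v, ρ (m k) w⟫_ℂ)]
      refine Finset.sum_congr rfl fun k _ => ?_
      rw [hρ.adj, Equiv.inv_apply, map_inv m]

theorem avg_comm (m : H →* Q) (g : Q) (hg : ∀ h, g * m h = m h * g) (v : V) :
    ρ g (avg ρ m v) = avg ρ m (ρ g v) := by
  rw [avg_apply, avg_apply, map_smul, map_sum]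
  congr 1
  refine Finset.sum_congr rfl fun k _ => ?_
  rw [← rho_mul, ← rho_mul, hg]

end rep

end Vale.Agent.P260.H662
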